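import Vale.Agent.P155.A801.NTGeo
import Vale.Agent.P155.D877.Trans
import Vale.Agent.P155.E.Prob

/-!
# P155, NT, block F: transposition of `TOUCHP`

`TOUCHP` for horizontal lines.
-/

namespace Vale.Agent.P155.NT

open Vale.Agent.P155 Skel D877

theorem ne_tr {ω : Conf} {v : Pt} : (trc ω).1 (tr v) ≠ (trc ω).2 (tr v) ↔ ω.1 v ≠ ω.2 v := by
  unfold trc trm
  simp only [tr_tr]
  rw [ne_eq, ne_eq, tr_inj]

theorem aCr_tr {ω : Conf} {q : Pt} {r1 r2 : ℕ} {v : Pt} {m : ℕ} (h : ACr ω q r1 r2 v m) :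
    ACr (trc ω) (tr q) r1 r2 (tr v) m where
  loop := ne_tr.2 h.loop
  mid := fun j h1 h2 => by
    rw [iter_tr, dn_tr]
    exact h.mid j h1 h2
  ends := by
    rw [iter_tr, dn_tr, dn_tr]
    exact h.ends

theorem ncard_trS (A : Set Pt) : (trS A).ncard = A.ncard := by
  have h : trS A = trE '' A := by
    rw [Equiv.image_eq_preimage_symm]
    rfl
  rw [h, Set.ncard_image_of_injective _ trE.injective]

theorem NX_tr (ω : Conf) (q : Pt) (r1 r2 : ℕ) : NX (trc ω) (tr q) r1 r2 = NX ω q r1 r2 := by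
  unfold NX
  rw [← ncard_trS {v | ∃ m, ACr ω q r1 r2 v m}]
  congr 1
  ext v
  constructor
  · rintro ⟨m, h⟩
    refine ⟨m, ?_⟩
    have := aCr_tr h
    rwa [trc_trc, tr_tr] at this
  · rintro ⟨m, h⟩
    refine ⟨m, ?_⟩
    have := aCr_tr h
    rwa [tr_tr] at this

theorem touchIn_tr {T : Temp} {yS : ℤ} {q : Pt} {r e : ℕ} {ω : Conf}
    (h : TouchInT T yS q r e ω) : TouchIn (trT T) yS (tr q) r e (trc ω) := by
  obtain ⟨v, hv, hd, ⟨x, hx⟩, h⟩ := h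
  refine ⟨tr v, ne_tr.2 hv, by rwa [dn_tr], ⟨x, ?_⟩, ?_⟩
  · rw [comp_tr]
    exact hx
  · rcases h with ⟨i, hi, h1, ⟨j, hj, h2⟩, k, hik, hk, h3⟩ | ⟨f, hf, h1⟩
    · left
      refine ⟨i, ?_, ?_, ⟨j, hj, ?_⟩, k, hik, ?_, ?_⟩
      · rwa [comp_tr, ncard_trS]
      · rwa [iter_tr, dn_tr]
      · rwa [iter_tr, dn_tr]
      · rwa [comp_tr, ncard_trS]
      · rwa [iter_tr, dn_tr]
    · right
      refine ⟨tr f, ?_, by rwa [dn_tr]⟩
      rwa [faceSet_tr]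

/-- **transposition**: `TOUCHP` for the horizontal lines follows from `TOUCHP`. -/
theorem touch_tr (h : TOUCHP) : TOUCHPT := by
  intro c ε hc hε K
  obtain ⟨η, hη, R0, hR0⟩ := h c ε hc hε K
  refine ⟨η, hη, R0, fun R hR T hT yS q r hr hq => ?_⟩
  have h1 := hR0 R hR (trT T) (fits_tr hT) yS (tr q) r hr hq
  rw [V_tr, Pr_tr] at h1
  refine le_trans ?_ h1
  refine E.Pr_mono ?_
  intro ω _ hω
  refine ⟨touchIn_tr hω.1, ?_⟩
  rw [NX_tr]
  exact hω.2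

end Vale.Agent.P155.NT
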